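import Mathlib

/-!
P108: definitions for the proof that the standard map has a positive exponent on positive area.
Orbits are written as sequences x (j+2) = 2 x (j+1) - x j + k sin (2 pi x (j+1)).
Site j has potential V j = 2 + 2 pi k cos (2 pi x j); a Jacobi field solves
xi (j+2) = V (j+1) * xi (j+1) - xi j.  Cut t sits between sites t and t+1.
-/

namespace Vale.Agent.P108

open MeasureTheory Set

noncomputable section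

/-- Jacobi field with initial data a, b. -/
def fld {R : Type*} [CommRing R] (V : ℕ → R) (a b : R) : ℕ → R
  | 0 => a
  | 1 => b
  | (j + 2) => V (j + 1) * fld V a b (j + 1) - fld V a b j

/-- xi solves the recurrence at the sites 1, ..., n. -/
def FldOn {R : Type*} [CommRing R] (V ξ : ℕ → R) (n : ℕ) : Prop :=
  ∀ j, j < n → ξ (j + 2) = V (j + 1) * ξ (j + 1) - ξ j

/-- sup norm of the vector of xi at cut j. -/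
def vn (ξ : ℕ → ℝ) (j : ℕ) : ℝ := max |ξ j| |ξ (j + 1)|

/-- entrywise l1 norm of the transfer matrix over the sites 1, ..., n. -/
def nrm (V : ℕ → ℝ) (n : ℕ) : ℝ :=
  |fld V 1 0 n| + |fld V 1 0 (n + 1)| + |fld V 0 1 n| + |fld V 0 1 (n + 1)|

/-- potentials seen forward from cut s. -/
def sh (V : ℕ → ℝ) (s : ℕ) : ℕ → ℝ := fun j => V (s + j)

/-- potentials seen backward from cut t. -/
def rv (V : ℕ → ℝ) (t : ℕ) : ℕ → ℝ := fun j => V (t + 1 - j)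

/-- bound for one step. -/
def Lam (k : ℝ) : ℝ := 4 * Real.pi * k + 4

def pot (k x : ℝ) : ℝ := 2 + 2 * Real.pi * k * Real.cos (2 * Real.pi * x)

def orb (k a b : ℝ) : ℕ → ℝ
  | 0 => a
  | 1 => b
  | (j + 2) => 2 * orb k a b (j + 1) - orb k a b j + k * Real.sin (2 * Real.pi * orb k a b (j + 1))

def Vo (k a b : ℝ) : ℕ → ℝ := fun j => pot k (orb k a b j)

/-- the map on pairs of consecutive positions. -/
def gm (k : ℝ) (z : ℝ × ℝ) : ℝ × ℝ := (z.2, 2 * z.2 - z.1 + k * Real.sin (2 * Real.pi * z.2))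

def box : Set (ℝ × ℝ) := Ico (0 : ℝ) 1 ×ˢ Ico (0 : ℝ) 1

/-- area on the fundamental domain. -/
def Pr (S : Set (ℝ × ℝ)) : ENNReal := volume (S ∩ box)

def Per (S : Set (ℝ × ℝ)) : Prop := ∀ (z : ℝ × ℝ) (m n : ℤ), (z.1 + m, z.2 + n) ∈ S ↔ z ∈ S

/-- forward shadow: some forward window of length at most N is deficient. -/
def Rsh (k g : ℝ) (N : ℕ) : Set (ℝ × ℝ) :=
  {z | ∃ m, 1 ≤ m ∧ m ≤ N ∧ nrm (Vo k z.1 z.2) m ≤ (Lam k / g) ^ m}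

/-- backward shadow. -/
def Lsh (k g : ℝ) (N : ℕ) : Set (ℝ × ℝ) := Prod.swap ⁻¹' Rsh k g N

def Weak (k g : ℝ) : Set (ℝ × ℝ) := {z | |pot k z.2| < Lam k / g}

/-- a Jacobi field of size one at the cut that is at most rho^h at distance h on both sides. -/
def Pk (k ρ : ℝ) (h : ℕ) : Set (ℝ × ℝ) :=
  {z | ∃ u1 u2 : ℝ, max |u1| |u2| = 1 ∧ vn (fld (Vo k z.1 z.2) u1 u2) h ≤ ρ ^ h ∧
    vn (fld (Vo k z.2 z.1) u2 u1) h ≤ ρ ^ h}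

/-- sequence versions of the bad events at cut t. -/
def WeakAt (L g : ℝ) (V : ℕ → ℝ) (t : ℕ) : Prop := |V (t + 1)| < L / g

def Dbl (L g : ℝ) (V : ℕ → ℝ) (M t : ℕ) : Prop :=
  (∃ n, 1 ≤ n ∧ n ≤ t ∧ n ≤ M ∧ nrm (rv V t) n ≤ (L / g) ^ n) ∧
  (∃ n, 1 ≤ n ∧ n ≤ M ∧ nrm (sh V t) n ≤ (L / g) ^ n)

def PeakAt (V : ℕ → ℝ) (ρ : ℝ) (c h : ℕ) : Prop :=
  ∃ u1 u2 : ℝ, max |u1| |u2| = 1 ∧ vn (fld (sh V c) u1 u2) h ≤ ρ ^ h ∧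
    vn (fld (rv V c) u2 u1) h ≤ ρ ^ h

def Cov (V : ℕ → ℝ) (ρ : ℝ) (H0 t : ℕ) : Prop :=
  ∃ h j, H0 ≤ h ∧ j ≤ h ∧ h ≤ t + j ∧ PeakAt V ρ (t + j) h

def Bad (L gw g ρ : ℝ) (V : ℕ → ℝ) (M H0 t : ℕ) : Prop :=
  WeakAt L gw V t ∨ Dbl L g V M t ∨ Cov V ρ H0 t

/-- window lengths of the classes used in the decoupling. -/
def ns : ℕ → ℕ
  | 0 => 1
  | (a + 1) => ns a + (ns a + 1) / 2

def Ecl (k g : ℝ) (n N : ℕ) : Set (ℝ × ℝ) :=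
  {z | (∀ j, 1 ≤ j → j ≤ n → (Lam k / g) ^ j ≤ nrm (Vo k z.1 z.2) j) ∧
    ∃ m, n < m ∧ 2 * m ≤ 3 * n + 1 ∧ m ≤ N ∧ nrm (Vo k z.1 z.2) m ≤ (Lam k / g) ^ m}

def Etl (k g : ℝ) (n N : ℕ) : Set (ℝ × ℝ) :=
  {z | (∀ j, 1 ≤ j → j ≤ n → (Lam k / g) ^ j / 2 ≤ nrm (Vo k z.1 z.2) j) ∧
    ∃ m, n < m ∧ 2 * m ≤ 3 * n + 1 ∧ m ≤ N ∧ nrm (Vo k z.1 z.2) m ≤ 2 * (Lam k / g) ^ m}

/-- row i carries at least half of the norm of the window n. -/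
def Row (k : ℝ) (n i : ℕ) : Set (ℝ × ℝ) :=
  {z | nrm (Vo k z.1 z.2) n / 2 ≤ |fld (Vo k z.1 z.2) 1 0 i| + |fld (Vo k z.1 z.2) 0 1 i|}

/-- complex extension along a coordinate line through the real point (p, q). -/
def potC (k : ℝ) (x : ℂ) : ℂ := 2 + 2 * Real.pi * k * Complex.cos (2 * Real.pi * x)

def orbC (k : ℝ) (a b : ℂ) : ℕ → ℂ
  | 0 => a
  | 1 => b
  | (j + 2) => 2 * orbC k a b (j + 1) - orbC k a b j +
      k * Complex.sin (2 * Real.pi * orbC k a b (j + 1))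

def xC (k p q e1 e2 : ℝ) (j : ℕ) (t : ℂ) : ℂ := orbC k (p + e1 * t) (q + e2 * t) j

def vC (k p q e1 e2 : ℝ) (j : ℕ) (t : ℂ) : ℂ :=
  fld (fun l => potC k (xC k p q e1 e2 l t)) (e1 : ℂ) (e2 : ℂ) j

def wC (k p q e1 e2 : ℝ) (j : ℕ) (t : ℂ) : ℂ :=
  fld (fun l => potC k (xC k p q e1 e2 l t)) (e2 : ℂ) (e1 : ℂ) j

/-- the direction (e1, e2) is a coordinate vector. -/
def Dir (e1 e2 : ℝ) : Prop := (e1 = 1 ∧ e2 = 0) ∨ (e1 = 0 ∧ e2 = 1)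

/-- the real field along the direction at the point (p, q). -/
def vr (k p q e1 e2 : ℝ) : ℕ → ℝ := fld (Vo k p q) e1 e2

/-- backward decay of v from cut i. -/
def BD (μ L : ℝ) (v : ℕ → ℝ) (i : ℕ) : Prop :=
  ∀ l, l ≤ i → vn v l ≤ μ ^ 2 * (μ ^ 2 / L) ^ (i - l) * vn v i

/-- clean cut t for the arm of length h. -/
def Cl (μ L : ℝ) (V : ℕ → ℝ) (h t : ℕ) : Prop :=
  (∀ n, 1 ≤ n → n ≤ t → (L / μ) ^ n ≤ nrm (rv V t) n) ∧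
  (∀ n, 1 ≤ n → t + n ≤ h → (L / μ) ^ n ≤ nrm (sh V t) n)

/-- first passage of v through the level T. -/
def fp (v : ℕ → ℝ) (T : ℝ) : ℕ := sInf {i | T ≤ vn v i}

def ClLev (μ L : ℝ) (V v : ℕ → ℝ) (h : ℕ) (T : ℝ) : Prop :=
  ∀ t, fp v T ≤ t + 1 → t ≤ fp v T + 5 → Cl μ L V h t

/-- decay of the field (u1, u2), transversal to the direction (e1, e2), on one arm. -/
def Dec (V : ℕ → ℝ) (e1 e2 u1 u2 ρ : ℝ) (h : ℕ) : Prop :=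
  |u1| ≤ 1 ∧ |u2| ≤ 1 ∧ |u1 * e2 + u2 * e1| = 1 ∧ vn (fld V u1 u2) h ≤ ρ ^ h

/-- peak points with the direction (e1, e2) transversal to the peak field. -/
def PkD (k e1 e2 ρ : ℝ) (h : ℕ) : Set (ℝ × ℝ) :=
  {z | ∃ u1 u2 : ℝ, Dec (Vo k z.1 z.2) e1 e2 u1 u2 ρ h ∧ Dec (Vo k z.2 z.1) e2 e1 u2 u1 ρ h}

/-- peak points for which the level T is clean on both arms. -/
def PkL (k μ e1 e2 ρ : ℝ) (h : ℕ) (T : ℝ) : Set (ℝ × ℝ) :=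
  {z | z ∈ PkD k e1 e2 ρ h ∧
    ClLev μ (Lam k) (Vo k z.1 z.2) (vr k z.1 z.2 e1 e2) h T ∧
    ClLev μ (Lam k) (Vo k z.2 z.1) (vr k z.2 z.1 e2 e1) h T}

/-- the two cosines have the same sign and are at least 1/500 in size. -/
def Gd (p q : ℝ) : Prop :=
  (1 / 500 ≤ Real.cos (2 * Real.pi * p) ∧ 1 / 500 ≤ Real.cos (2 * Real.pi * q)) ∨
  (Real.cos (2 * Real.pi * p) ≤ -(1 / 500) ∧ Real.cos (2 * Real.pi * q) ≤ -(1 / 500))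

/-- A contains sixteen increasing points with gaps at least lam. -/
def Sixteen (A : Set ℝ) (lam : ℝ) : Prop :=
  ∃ t : ℕ → ℝ, (∀ l, l < 16 → t l ∈ A) ∧ ∀ l, l < 15 → t l + lam ≤ t (l + 1)

/-- real-variable data of two chains on the rescaled line. -/
structure HoleData (μ ρ : ℝ) (P Q P0 Q0 P' Q' P0' Q0' : ℝ → ℝ) : Prop where
  dP : ∀ s ∈ Icc (-1 : ℝ) (μ ^ 60), HasDerivAt P (P' s) s
  dQ : ∀ s ∈ Icc (-1 : ℝ) (μ ^ 60), HasDerivAt Q (Q' s) s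
  dP0 : ∀ s ∈ Icc (-1 : ℝ) (μ ^ 60), HasDerivAt P0 (P0' s) s
  dQ0 : ∀ s ∈ Icc (-1 : ℝ) (μ ^ 60), HasDerivAt Q0 (Q0' s) s
  bP : ∀ s ∈ Icc (-1 : ℝ) (μ ^ 60), |P' s - 1| ≤ |s| / μ ^ 90
  bQ : ∀ s ∈ Icc (-1 : ℝ) (μ ^ 60), |Q' s - ρ| ≤ ρ * |s| / μ ^ 90
  bP0 : ∀ s ∈ Icc (-1 : ℝ) (μ ^ 60), |P0' s| ≤ 1 / μ ^ 90
  bQ0 : ∀ s ∈ Icc (-1 : ℝ) (μ ^ 60), |Q0' s| ≤ 1 / μ ^ 90

/-- holes of the first kind: a part c of [0, R] is good for the pair P, Q. -/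
def HoleI (μ c : ℝ) (P Q : ℝ → ℝ) : Prop :=
  ∃ R, 1 ≤ R ∧ R ≤ μ ^ 57 ∧ ∃ G : Set ℝ, MeasurableSet G ∧ G ⊆ Icc 0 R ∧
    ENNReal.ofReal (c * R) ≤ volume G ∧ ∀ s ∈ G, ∀ s', |s' - s| ≤ 1 / 10000 → Gd (P s') (Q s')

/-- the next position of a chain. -/
def nxt (k : ℝ) (P P0 : ℝ → ℝ) (s : ℝ) : ℝ := 2 * P s - P0 s + k * Real.sin (2 * Real.pi * P s)

/-- holes of the second kind: a part c of [0, 4] is good for the next pair. -/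
def HoleII (k c : ℝ) (P Q P0 Q0 : ℝ → ℝ) : Prop :=
  ∃ G : Set ℝ, MeasurableSet G ∧ G ⊆ Icc 0 4 ∧ ENNReal.ofReal (c * 4) ≤ volume G ∧
    ∀ s ∈ G, ∀ s', |s' - s| ≤ 1 / (10000 * Lam k) → Gd (nxt k P P0 s') (nxt k Q Q0 s') ∧
      4 / 5 ≤ |Real.cos (2 * Real.pi * P s')| ∧ 4 / 5 ≤ |Real.cos (2 * Real.pi * Q s')|

/-- binomial sum of sines at half steps. -/
def tri (P : ℝ → ℝ) (s : ℝ) : ℝ :=
  Real.sin (2 * Real.pi * P s) + 3 * Real.sin (2 * Real.pi * P (s + 1 / 2)) +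
    3 * Real.sin (2 * Real.pi * P (s + 1)) + Real.sin (2 * Real.pi * P (s + 3 / 2))

/-- porosity of A to the right of t at the scales del (coarse) and del' (fine). -/
def Porous (A : Set ℝ) (c del del' t : ℝ) : Prop :=
  ∃ R, 8 / c * del' ≤ R ∧ R ≤ del / 2 ∧
    volume {s | s ∈ Icc t (t + R) ∧ ∃ a ∈ A, |s - a| ≤ del'} ≤ ENNReal.ofReal ((1 - c) * R)

end

end Vale.Agent.P108
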